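import Mathlib

/-!
# The Fischer inner product on polynomials and linear substitutions
-/

namespace Vale.Agent.P002.H2N

open MvPolynomial Module

variable {σ : Type}

/-- the product of the factorials of the exponents -/
noncomputable def fac (m : σ →₀ ℕ) : ℂ := m.prod fun _ k => (k.factorial : ℂ)

theorem fac_zero : fac (0 : σ →₀ ℕ) = 1 := by
  rw [fac, Finsupp.prod_zero_index]

theorem fac_add_single [DecidableEq σ] (m : σ →₀ ℕ) (i : σ) :
    fac (m + Finsupp.single i 1) = (m i + 1) * fac m := by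
  have h1 : ∀ m : σ →₀ ℕ, fac m = (m i).factorial * ∏ k ∈ m.support.erase i, ((m k).factorial : ℂ) := by
    intro m
    rw [fac, Finsupp.prod]
    by_cases h : i ∈ m.support
    · rw [← Finset.mul_prod_erase _ _ h]
    · rw [Finset.erase_eq_of_notMem h, Finsupp.notMem_support_iff.1 h, Nat.factorial_zero,
        Nat.cast_one, one_mul]
  rw [h1, h1 m]
  have h2 : (m + Finsupp.single i 1).support.erase i = m.support.erase i := by
    ext k
    simp only [Finset.mem_erase, Finsupp.mem_support_iff, Finsupp.add_apply]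
    constructor
    · rintro ⟨hk, h⟩
      rw [Finsupp.single_eq_of_ne hk, add_zero] at h
      exact ⟨hk, h⟩
    · rintro ⟨hk, h⟩
      rw [Finsupp.single_eq_of_ne hk, add_zero]
      exact ⟨hk, h⟩
  rw [h2, Finsupp.add_apply, Finsupp.single_eq_same, Nat.factorial_succ, Nat.cast_mul,
    Nat.cast_add, Nat.cast_one, mul_assoc]
  congr 2
  refine Finset.prod_congr rfl fun k hk => ?_
  rw [Finsupp.add_apply, Finsupp.single_eq_of_ne (Finset.ne_of_mem_erase hk), add_zero]

theorem fac_pos (m : σ →₀ ℕ) : ∃ n : ℕ, 0 < n ∧ fac m = n :=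
  ⟨m.prod fun _ k => k.factorial, Finset.prod_pos fun _ _ => Nat.factorial_pos _, by
    rw [fac, Finsupp.prod, Finsupp.prod, Nat.cast_prod]⟩

/-- the bilinear form with `B (X^m) (X^m) = m!` -/
noncomputable def B : MvPolynomial σ ℂ →ₗ[ℂ] MvPolynomial σ ℂ →ₗ[ℂ] ℂ :=
  (basisMonomials σ ℂ).constr ℂ fun m => fac m • lcoeff ℂ m

theorem B_monomial (m : σ →₀ ℕ) (h : MvPolynomial σ ℂ) :
    B (monomial m 1) h = fac m * coeff m h := by
  have h1 : B (monomial m 1) = fac m • lcoeff ℂ m := by
    have h0 : (monomial m 1 : MvPolynomial σ ℂ) = basisMonomials σ ℂ m :=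
      (congrFun (coe_basisMonomials σ ℂ) m).symm
    rw [B, h0]
    exact Basis.constr_basis ..
  rw [h1]
  rfl

theorem B_eq (f h : MvPolynomial σ ℂ) :
    B f h = ∑ m ∈ f.support, coeff m f * (fac m * coeff m h) := by
  conv_lhs => rw [f.as_sum, map_sum, LinearMap.sum_apply]
  refine Finset.sum_congr rfl fun m _ => ?_
  rw [← B_monomial, ← smul_eq_mul, ← LinearMap.smul_apply, ← map_smul, smul_monomial, smul_eq_mul,
    mul_one]

theorem B_mul_X (i : σ) (f h : MvPolynomial σ ℂ) : B (f * X i) h = B f (pderiv i h) := by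
  classical
  induction f using MvPolynomial.induction_on' with
  | monomial m c =>
    have h1 : (monomial m c : MvPolynomial σ ℂ) = c • monomial m 1 := by
      rw [smul_monomial, smul_eq_mul, mul_one]
    rw [h1, smul_mul_assoc, map_smul, map_smul, LinearMap.smul_apply, LinearMap.smul_apply]
    congr 1
    have h2 : (monomial m 1 : MvPolynomial σ ℂ) * X i = monomial (m + Finsupp.single i 1) 1 := by
      rw [X, monomial_mul, mul_one]
    rw [h2, B_monomial, B_monomial, coeff_pderiv, fac_add_single]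
    ring
  | add p q hp hq =>
    rw [add_mul, map_add, LinearMap.add_apply, hp, hq, map_add, LinearMap.add_apply]

/-- linear substitution -/
noncomputable def sub [Fintype σ] (A : σ → σ → ℂ) : MvPolynomial σ ℂ →ₐ[ℂ] MvPolynomial σ ℂ :=
  aeval fun i => ∑ j, C (A i j) * X j

theorem eval_sub [Fintype σ] (A : σ → σ → ℂ) (f : MvPolynomial σ ℂ) (x : σ → ℂ) :
    eval x (sub A f) = eval (fun i => ∑ j, A i j * x j) f := by
  rw [sub, ← MvPolynomial.coe_aeval_eq_eval, ← MvPolynomial.coe_aeval_eq_eval,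
    RingHom.coe_coe, RingHom.coe_coe, ← AlgHom.comp_apply, MvPolynomial.comp_aeval]
  congr 2
  funext i
  rw [map_sum]
  refine Finset.sum_congr rfl fun j _ => ?_
  rw [map_mul, aeval_X, aeval_C]
  rfl

theorem pderiv_sub [Fintype σ] (A : σ → σ → ℂ) (i : σ) (h : MvPolynomial σ ℂ) :
    pderiv i (sub A h) = ∑ j, C (A j i) * sub A (pderiv j h) := by
  classical
  induction h using MvPolynomial.induction_on with
  | C c =>
    have h1 : sub A (C c) = C c := by rw [sub, aeval_C]; rfl
    rw [h1, pderiv_C]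
    refine (Finset.sum_eq_zero fun j _ => ?_).symm
    rw [pderiv_C, map_zero, mul_zero]
  | add p q hp hq =>
    rw [map_add, map_add, hp, hq, ← Finset.sum_add_distrib]
    refine Finset.sum_congr rfl fun j _ => ?_
    rw [map_add, map_add, mul_add]
  | mul_X p k hp =>
    have hX : sub A (X k) = ∑ j, C (A k j) * X j := by rw [sub, aeval_X]
    have h2 : pderiv i (sub A (X k)) = C (A k i) := by
      rw [hX, map_sum, Finset.sum_eq_single i]
      · rw [pderiv_C_mul, pderiv_X_self, mul_one]
      · intro j _ hj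
        rw [pderiv_C_mul, pderiv_X_of_ne hj, mul_zero]
      · intro h
        exact absurd (Finset.mem_univ i) h
    rw [map_mul, pderiv_mul, hp, h2, Finset.sum_mul]
    have h3 : ∀ j, C (A j i) * sub A (pderiv j (p * X k)) =
        C (A j i) * sub A (pderiv j p) * sub A (X k) +
          C (A j i) * sub A p * sub A (pderiv j (X k)) := by
      intro j
      rw [pderiv_mul, map_add, map_mul, map_mul]
      ring
    simp_rw [h3]
    rw [Finset.sum_add_distrib]
    congr 1
    rw [Finset.sum_eq_single k]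
    · rw [pderiv_X_self, map_one, mul_one, mul_comm]
    · intro j _ hj
      rw [pderiv_X_of_ne (Ne.symm hj), map_zero, mul_zero]
    · intro h
      exact absurd (Finset.mem_univ k) h

/-- the adjoint of a linear substitution is the substitution by the transpose -/
theorem B_sub [Fintype σ] (A : σ → σ → ℂ) (f h : MvPolynomial σ ℂ) :
    B (sub A f) h = B f (sub (fun i j => A j i) h) := by
  classical
  induction f using MvPolynomial.induction_on generalizing h with
  | C c =>
    have h1 : sub A (C c) = C c := by rw [sub, aeval_C]; rfl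
    have h2 : (C c : MvPolynomial σ ℂ) = c • monomial 0 1 := by
      rw [smul_monomial, smul_eq_mul, mul_one]; rfl
    rw [h1, h2, map_smul, LinearMap.smul_apply, LinearMap.smul_apply, B_monomial, B_monomial]
    congr 2
    rw [← MvPolynomial.constantCoeff_eq, ← MvPolynomial.eval_zero, eval_sub]
    congr 2
    funext i
    simp
  | add p q hp hq => rw [map_add, map_add, LinearMap.add_apply, hp, hq, map_add,
      LinearMap.add_apply]
  | mul_X p k hp =>
    have hX : sub A (X k) = ∑ j, C (A k j) * X j := by rw [sub, aeval_X]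
    rw [map_mul, hX, B_mul_X, pderiv_sub, Finset.mul_sum, map_sum, LinearMap.sum_apply, map_sum]
    refine Finset.sum_congr rfl fun j _ => ?_
    have h1 : sub A p * (C (A k j) * X j) = A k j • (sub A p * X j) := by
      rw [smul_eq_C_mul]; ring
    rw [h1, map_smul, LinearMap.smul_apply, B_mul_X, hp, ← smul_eq_C_mul, map_smul]

/-- complex conjugation of the coefficients -/
noncomputable def cj : MvPolynomial σ ℂ →+* MvPolynomial σ ℂ := map (starRingEnd ℂ)

theorem cj_cj (f : MvPolynomial σ ℂ) : cj (cj f) = f := by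
  rw [cj, map_map]
  have h1 : (starRingEnd ℂ).comp (starRingEnd ℂ) = RingHom.id ℂ := by
    ext z
    exact Complex.conj_conj z
  rw [h1, map_id]

theorem cj_smul (c : ℂ) (f : MvPolynomial σ ℂ) : cj (c • f) = (starRingEnd ℂ c) • cj f := by
  rw [smul_eq_C_mul, smul_eq_C_mul, map_mul, cj, map_C]

theorem cj_sub [Fintype σ] (A : σ → σ → ℂ) (f : MvPolynomial σ ℂ) :
    cj (sub A f) = sub (fun i j => starRingEnd ℂ (A i j)) (cj f) := by
  induction f using MvPolynomial.induction_on with
  | C c => rw [sub, sub, aeval_C, cj, map_C, aeval_C]; exact map_C ..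
  | add p q hp hq => rw [map_add, map_add, hp, hq, map_add, map_add]
  | mul_X p k hp =>
    rw [map_mul, map_mul, hp, map_mul, map_mul]
    congr 1
    rw [sub, sub, aeval_X, cj, map_X, aeval_X, map_sum]
    refine Finset.sum_congr rfl fun j _ => ?_
    rw [map_mul, map_C, map_X]

theorem coeff_cj (m : σ →₀ ℕ) (f : MvPolynomial σ ℂ) :
    coeff m (cj f) = starRingEnd ℂ (coeff m f) := by
  rw [cj, coeff_map]

/-- the Fischer inner product is definite -/
theorem B_cj_ne (f : MvPolynomial σ ℂ) (hf : B f (cj f) = 0) : f = 0 := by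
  by_contra hne
  have h1 : B f (cj f) = ((∑ m ∈ f.support, (fac m).re * Complex.normSq (coeff m f) : ℝ) : ℂ) := by
    rw [B_eq, Complex.ofReal_sum]
    refine Finset.sum_congr rfl fun m _ => ?_
    obtain ⟨n, -, hn⟩ := fac_pos m
    rw [coeff_cj, hn, Complex.ofReal_mul, Complex.normSq_eq_conj_mul_self, Complex.natCast_re,
      Complex.ofReal_natCast]
    ring
  rw [h1, Complex.ofReal_eq_zero] at hf
  have h2 : ∀ m ∈ f.support, 0 ≤ (fac m).re * Complex.normSq (coeff m f) := by
    intro m _
    obtain ⟨n, -, hn⟩ := fac_pos m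
    rw [hn, Complex.natCast_re]
    exact mul_nonneg (Nat.cast_nonneg _) (Complex.normSq_nonneg _)
  obtain ⟨m, hm⟩ := MvPolynomial.ne_zero_iff.1 hne
  have h3 := (Finset.sum_eq_zero_iff_of_nonneg h2).1 hf m (mem_support_iff.2 hm)
  obtain ⟨n, hn0, hn⟩ := fac_pos m
  rw [hn, Complex.natCast_re, mul_eq_zero] at h3
  rcases h3 with h3 | h3
  · exact hn0.ne' (Nat.cast_eq_zero.1 h3)
  · exact hm (Complex.normSq_eq_zero.1 h3)

/-- the conjugate subspace -/
def cjSub (M : Submodule ℂ (MvPolynomial σ ℂ)) : Submodule ℂ (MvPolynomial σ ℂ) where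
  carrier := {f | cj f ∈ M}
  add_mem' {f g} hf hg := by
    rw [Set.mem_ofPred_eq, map_add]
    exact M.add_mem hf hg
  zero_mem' := by
    rw [Set.mem_ofPred_eq, map_zero]
    exact M.zero_mem
  smul_mem' c f hf := by
    rw [Set.mem_ofPred_eq, cj_smul]
    exact M.smul_mem _ hf

/-- orthogonal projection to a finite-dimensional subspace -/
theorem exists_proj (M : Submodule ℂ (MvPolynomial σ ℂ)) [FiniteDimensional ℂ M]
    (f : MvPolynomial σ ℂ) : ∃ m ∈ M, ∀ g ∈ M, B (f - m) (cj g) = 0 := by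
  obtain ⟨Φ, hΦ⟩ : ∃ Φ : M →ₗ[ℂ] Dual ℂ (cjSub M), ∀ m h, Φ m h = B m.1 h.1 :=
    ⟨(LinearMap.lcomp ℂ ℂ (cjSub M).subtype).comp (B.comp M.subtype), fun m h => rfl⟩
  obtain ⟨Ψ, hΨ⟩ : ∃ Ψ : cjSub M →ₗ[ℂ] Dual ℂ M, ∀ h m, Ψ h m = B m.1 h.1 :=
    ⟨((LinearMap.lcomp ℂ ℂ M.subtype).comp (B.flip.comp (cjSub M).subtype)), fun m h => rfl⟩
  have hΦi : Function.Injective Φ := by
    rw [← LinearMap.ker_eq_bot, LinearMap.ker_eq_bot']
    intro m hm
    have h1 : cj m.1 ∈ cjSub M := by
      change cj (cj m.1) ∈ M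
      rw [cj_cj]
      exact m.2
    have h2 := LinearMap.congr_fun hm ⟨_, h1⟩
    rw [hΦ] at h2
    exact Subtype.ext (B_cj_ne _ h2)
  have hΨi : Function.Injective Ψ := by
    rw [← LinearMap.ker_eq_bot, LinearMap.ker_eq_bot']
    intro h hh
    have h2 := LinearMap.congr_fun hh ⟨cj h.1, h.2⟩
    rw [hΨ] at h2
    change B (cj h.1) h.1 = 0 at h2
    have h3 : B (cj h.1) (cj (cj h.1)) = 0 := by rw [cj_cj]; exact h2
    have h4 := B_cj_ne _ h3
    apply Subtype.ext
    rw [← cj_cj h.1, h4, map_zero]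
    rfl
  have hfd : FiniteDimensional ℂ (cjSub M) := FiniteDimensional.of_injective Ψ hΨi
  have h1 : finrank ℂ M ≤ finrank ℂ (cjSub M) := by
    rw [← Subspace.dual_finrank_eq (K := ℂ) (V := cjSub M)]
    exact LinearMap.finrank_le_finrank_of_injective hΦi
  have h2 : finrank ℂ (cjSub M) ≤ finrank ℂ M := by
    rw [← Subspace.dual_finrank_eq (K := ℂ) (V := M)]
    exact LinearMap.finrank_le_finrank_of_injective hΨi
  have h3 : finrank ℂ M = finrank ℂ (Dual ℂ (cjSub M)) := by
    rw [Subspace.dual_finrank_eq]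
    exact le_antisymm h1 h2
  obtain ⟨m, hm⟩ := (LinearMap.injective_iff_surjective_of_finrank_eq_finrank h3).1 hΦi
    ((B f).comp (cjSub M).subtype)
  refine ⟨m.1, m.2, fun g hg => ?_⟩
  have h1 : cj g ∈ cjSub M := by
    change cj (cj g) ∈ M
    rw [cj_cj]
    exact hg
  have h2 := LinearMap.congr_fun hm ⟨_, h1⟩
  rw [hΦ] at h2
  rw [map_sub, LinearMap.sub_apply, sub_eq_zero]
  exact h2.symm

end Vale.Agent.P002.H2N
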