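import Vale.Agent.P002.H2N.Reyn
import Vale.Agent.P002R.YOrbStmt

/-!
# Polynomials which are invariant over `ℂ` are invariant over all `ℂ`-algebras
-/

namespace Vale.Agent.P002.H2N

open Matrix Vale.Agent.P002R.Orb

variable {ι : Type} {r : ℕ}

/-- invariance under `GL_r(ℂ)` -/
theorem gl_inv [Fintype ι] [DecidableEq ι] (f : MvPolynomial (ι × Fin r × Fin r) ℂ)
    (hf : ∀ P : Matrix.SpecialLinearGroup (Fin r) ℂ, sub (cm P.1 (P⁻¹).1) f = f)
    (T : Matrix (Fin r) (Fin r) ℂ) (hT : T.det ≠ 0) (M : ι → Matrix (Fin r) (Fin r) ℂ) :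
    MvPolynomial.eval (fun a : ι × Fin r × Fin r =>
        (T.det)⁻¹ * (T * M a.1 * T.adjugate) a.2.1 a.2.2) f =
      MvPolynomial.eval (fun a : ι × Fin r × Fin r => M a.1 a.2.1 a.2.2) f := by
  rcases Nat.eq_zero_or_pos r with hr | hr
  · subst hr
    congr 2
    funext a
    exact a.2.1.elim0
  obtain ⟨c, hc⟩ := IsAlgClosed.exists_pow_nat_eq (T.det)⁻¹ hr
  have hc0 : c ≠ 0 := by
    rintro rfl
    rw [zero_pow hr.ne'] at hc
    exact inv_ne_zero hT hc.symm
  have hc1 : (c • T).det = 1 := by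
    rw [Matrix.det_smul, Fintype.card_fin, hc, inv_mul_cancel₀ hT]
  obtain ⟨g, hg⟩ : ∃ g : Matrix.SpecialLinearGroup (Fin r) ℂ, g.1 = c • T := ⟨⟨c • T, hc1⟩, rfl⟩
  have hginv : (g⁻¹).1 = c ^ (r - 1) • T.adjugate := by
    have h : (g⁻¹).1 = g.1.adjugate := Matrix.SpecialLinearGroup.coe_inv g
    rw [h, hg, Matrix.adjugate_smul, Fintype.card_fin]
  have h1 := congrArg (MvPolynomial.eval fun a : ι × Fin r × Fin r => M a.1 a.2.1 a.2.2) (hf g)
  rw [eval_cm] at h1
  rw [← h1]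
  congr 2
  funext a
  have h2 : mats (fun a : ι × Fin r × Fin r => M a.1 a.2.1 a.2.2) a.1 = M a.1 := rfl
  have h3 : g.1 * M a.1 * (g⁻¹).1 = (T.det)⁻¹ • (T * M a.1 * T.adjugate) := by
    rw [hg, hginv, smul_mul_assoc, smul_mul_assoc, mul_smul_comm, smul_smul, ← pow_succ',
      Nat.sub_add_cancel hr, hc]
  rw [h2, h3]
  rfl

section univ

variable [Fintype ι] [DecidableEq ι] {N : ℕ}

/-- the homogenised invariance -/
theorem hom_inv (f : MvPolynomial (ι × Fin r × Fin r) ℂ)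
    (hf : ∀ P : Matrix.SpecialLinearGroup (Fin r) ℂ, sub (cm P.1 (P⁻¹).1) f = f)
    (T : Matrix (Fin r) (Fin r) ℂ) (hT : T.det ≠ 0) (M : ι → Matrix (Fin r) (Fin r) ℂ) :
    ∑ m ∈ f.support, MvPolynomial.coeff m f * T.det ^ (f.totalDegree - m.sum fun _ k => k) *
        ∏ a ∈ m.support, (T * M a.1 * T.adjugate) a.2.1 a.2.2 ^ m a =
      T.det ^ f.totalDegree *
        MvPolynomial.eval (fun a : ι × Fin r × Fin r => M a.1 a.2.1 a.2.2) f := by
  rw [← gl_inv f hf T hT M, MvPolynomial.eval_eq, Finset.mul_sum]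
  refine Finset.sum_congr rfl fun m hm => ?_
  have h1 : ∏ a ∈ m.support, (T * M a.1 * T.adjugate) a.2.1 a.2.2 ^ m a =
      T.det ^ (m.sum fun _ k => k) *
        ∏ a ∈ m.support, ((T.det)⁻¹ * (T * M a.1 * T.adjugate) a.2.1 a.2.2) ^ m a := by
    rw [Finsupp.sum, ← Finset.prod_pow_eq_pow_sum, ← Finset.prod_mul_distrib]
    refine Finset.prod_congr rfl fun a _ => ?_
    rw [mul_pow, ← mul_assoc, ← mul_pow, mul_inv_cancel₀ hT, one_pow, one_mul]
  have h2 : T.det ^ f.totalDegree = T.det ^ (f.totalDegree - m.sum fun _ k => k) *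
      T.det ^ (m.sum fun _ k => k) := by
    rw [← pow_add, Nat.sub_add_cancel (MvPolynomial.le_totalDegree hm)]
  rw [h1, h2]
  ring

/-- the generic matrices -/
noncomputable def gX (p : ι) : Matrix (Fin r) (Fin r)
    (MvPolynomial ((ι × Fin r × Fin r) ⊕ (Fin r × Fin r)) ℂ) :=
  fun i j => MvPolynomial.X (Sum.inl (p, i, j))

/-- the generic matrix -/
noncomputable def gP (ι : Type) (r : ℕ) : Matrix (Fin r) (Fin r)
    (MvPolynomial ((ι × Fin r × Fin r) ⊕ (Fin r × Fin r)) ℂ) :=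
  fun i j => MvPolynomial.X (Sum.inr (i, j))

/-- the coordinates of the generic conjugate, multiplied by the determinant -/
noncomputable def gA (a : ι × Fin r × Fin r) :
    MvPolynomial ((ι × Fin r × Fin r) ⊕ (Fin r × Fin r)) ℂ :=
  (gP ι r * gX (r := r) a.1 * (gP ι r).adjugate : Matrix (Fin r) (Fin r)
    (MvPolynomial ((ι × Fin r × Fin r) ⊕ (Fin r × Fin r)) ℂ)) a.2.1 a.2.2

theorem map_adj {A A' : Type*} [CommRing A] [CommRing A'] (φ : A →+* A')
    (P M : Matrix (Fin r) (Fin r) A) (i j : Fin r) :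
    φ ((P * M * P.adjugate) i j) = (P.map φ * M.map φ * (P.map φ).adjugate) i j := by
  have h1 : (P.map φ).adjugate = P.adjugate.map φ := by
    have := RingHom.map_adjugate φ P
    exact this.symm
  rw [h1, ← Matrix.map_mul, ← Matrix.map_mul, Matrix.map_apply]

theorem univ_inv (f : MvPolynomial (ι × Fin r × Fin r) ℂ)
    (hf : ∀ P : Matrix.SpecialLinearGroup (Fin r) ℂ, sub (cm P.1 (P⁻¹).1) f = f) :
    ∑ m ∈ f.support, MvPolynomial.C (MvPolynomial.coeff m f) *
        (gP ι r).det ^ (f.totalDegree - m.sum fun _ k => k) *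
        ∏ a ∈ m.support, gA a ^ m a =
      (gP ι r).det ^ f.totalDegree *
        MvPolynomial.aeval (fun a : ι × Fin r × Fin r => gX (r := r) a.1 a.2.1 a.2.2) f := by
  have hdet : (gP ι r).det ≠ 0 := by
    intro h
    have h1 := congrArg (MvPolynomial.eval (Sum.elim (fun _ => 0)
      (fun a : Fin r × Fin r => (1 : Matrix (Fin r) (Fin r) ℂ) a.1 a.2))) h
    rw [RingHom.map_det, map_zero] at h1
    have h2 : (MvPolynomial.eval (Sum.elim (fun _ => 0)
      (fun a : Fin r × Fin r => (1 : Matrix (Fin r) (Fin r) ℂ) a.1 a.2))).mapMatrix (gP ι r) =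
        1 := by
      ext i j
      rw [RingHom.mapMatrix_apply, Matrix.map_apply, gP, MvPolynomial.eval_X]
      rfl
    rw [h2, Matrix.det_one] at h1
    exact one_ne_zero h1
  refine mul_right_cancel₀ hdet (MvPolynomial.funext fun z => ?_)
  obtain ⟨T, hT⟩ : ∃ T : Matrix (Fin r) (Fin r) ℂ, T = fun i j => z (Sum.inr (i, j)) := ⟨_, rfl⟩
  obtain ⟨M, hM⟩ : ∃ M : ι → Matrix (Fin r) (Fin r) ℂ, M = fun p i j => z (Sum.inl (p, i, j)) :=
    ⟨_, rfl⟩
  have hP1 : (gP ι r).map (MvPolynomial.eval z) = T := by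
    ext i j
    rw [Matrix.map_apply, gP, MvPolynomial.eval_X, hT]
  have hX1 : ∀ p, (gX p).map (MvPolynomial.eval z) = M p := by
    intro p
    ext i j
    rw [Matrix.map_apply, gX, MvPolynomial.eval_X, hM]
  have hdet1 : MvPolynomial.eval z (gP ι r).det = T.det := by
    rw [RingHom.map_det, RingHom.mapMatrix_apply, hP1]
  rw [map_mul, map_mul, hdet1]
  by_cases hT0 : T.det = 0
  · rw [hT0, mul_zero, mul_zero]
  congr 1
  rw [map_mul, map_pow, hdet1]
  have h1 : MvPolynomial.eval z (MvPolynomial.aeval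
      (fun a : ι × Fin r × Fin r => gX (r := r) a.1 a.2.1 a.2.2) f) =
      MvPolynomial.eval (fun a : ι × Fin r × Fin r => M a.1 a.2.1 a.2.2) f := by
    rw [← MvPolynomial.coe_aeval_eq_eval, RingHom.coe_coe, ← AlgHom.comp_apply,
      MvPolynomial.comp_aeval, ← MvPolynomial.coe_aeval_eq_eval, RingHom.coe_coe]
    congr 2
    funext a
    rw [gX, MvPolynomial.aeval_X, hM]
  rw [h1, ← hom_inv f hf T hT0 M, map_sum]
  refine Finset.sum_congr rfl fun m _ => ?_
  rw [map_mul, map_mul, MvPolynomial.eval_C, map_pow, hdet1, map_prod]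
  congr 1
  refine Finset.prod_congr rfl fun a _ => ?_
  rw [map_pow, gA, map_adj, hP1, hX1]

end univ

/-- **A polynomial which is invariant over `ℂ` is invariant.** -/
theorem isInvariant_of [Fintype ι] [DecidableEq ι] (R : Set (FreeGroup ι))
    (f : MvPolynomial (ι × Fin r × Fin r) ℂ)
    (hf : ∀ P : Matrix.SpecialLinearGroup (Fin r) ℂ, sub (cm P.1 (P⁻¹).1) f = f) :
    IsInvariant R f := by
  intro A _ _ X P _
  obtain ⟨φ, hφ⟩ : ∃ φ : MvPolynomial ((ι × Fin r × Fin r) ⊕ (Fin r × Fin r)) ℂ →ₐ[ℂ] A,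
      φ = MvPolynomial.aeval (Sum.elim (fun a => (X a.1).1 a.2.1 a.2.2)
        (fun a => P.1 a.1 a.2)) := ⟨_, rfl⟩
  have hP1 : (gP ι r).map (φ : _ →+* A) = P.1 := by
    ext i j
    rw [Matrix.map_apply, gP, hφ]
    exact MvPolynomial.aeval_X ..
  have hX1 : ∀ p, (gX p).map (φ : _ →+* A) = (X p).1 := by
    intro p
    ext i j
    rw [Matrix.map_apply, gX, hφ]
    exact MvPolynomial.aeval_X ..
  have hdet1 : φ (gP ι r).det = 1 := by
    have h := RingHom.map_det (φ : _ →+* A) (gP ι r)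
    rw [RingHom.mapMatrix_apply, hP1, P.2] at h
    exact h
  have h1 := congrArg φ (univ_inv f hf)
  rw [map_mul, map_pow, hdet1, one_pow, one_mul, map_sum] at h1
  have h2 : φ (MvPolynomial.aeval
      (fun a : ι × Fin r × Fin r => gX (r := r) a.1 a.2.1 a.2.2) f) = value f X := by
    rw [← AlgHom.comp_apply, MvPolynomial.comp_aeval]
    change MvPolynomial.eval₂ _ _ f = _
    congr 1
    funext a
    have := congrFun (congrFun (hX1 a.1) a.2.1) a.2.2
    exact this
  rw [h2] at h1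
  rw [← h1]
  have hinv : (P⁻¹).1 = P.1.adjugate := Matrix.SpecialLinearGroup.coe_inv P
  rw [value, MvPolynomial.eval₂_eq]
  refine Finset.sum_congr rfl fun m _ => ?_
  rw [map_mul, map_mul, map_pow, hdet1, one_pow, mul_one, map_prod]
  congr 1
  · exact (MvPolynomial.algHom_C φ _).symm
  · refine Finset.prod_congr rfl fun a _ => ?_
    rw [map_pow]
    congr 1
    have h3 := map_adj (φ : _ →+* A) (gP ι r) (gX a.1) a.2.1 a.2.2
    rw [hP1, hX1] at h3
    rw [← hinv] at h3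
    exact h3.symm

end Vale.Agent.P002.H2N
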