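import Vale.Agent.P002.H2N.Fischer

/-!
# Invariants of simultaneous conjugation: averaging by orthogonal projection
-/

namespace Vale.Agent.P002.H2N

open Matrix

section deg

variable {σ : Type} [Fintype σ]

theorem totalDegree_sub_le (A : σ → σ → ℂ) (f : MvPolynomial σ ℂ) :
    (sub A f).totalDegree ≤ f.totalDegree := by
  have hlin : ∀ i, (∑ j, MvPolynomial.C (A i j) * MvPolynomial.X j : MvPolynomial σ ℂ).totalDegree
      ≤ 1 := by
    intro i
    refine (MvPolynomial.totalDegree_finsetSum _ _).trans (Finset.sup_le fun j _ => ?_)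
    refine (MvPolynomial.totalDegree_mul _ _).trans ?_
    rw [MvPolynomial.totalDegree_C, MvPolynomial.totalDegree_X]
  conv_lhs => rw [f.as_sum, map_sum]
  refine (MvPolynomial.totalDegree_finsetSum _ _).trans (Finset.sup_le fun m hm => ?_)
  rw [sub, MvPolynomial.aeval_monomial]
  refine (MvPolynomial.totalDegree_mul _ _).trans ?_
  have h1 : (algebraMap ℂ (MvPolynomial σ ℂ) (MvPolynomial.coeff m f)).totalDegree = 0 :=
    MvPolynomial.totalDegree_C _
  rw [h1, zero_add, Finsupp.prod]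
  refine (MvPolynomial.totalDegree_finsetProd _ _).trans ?_
  refine le_trans (Finset.sum_le_sum fun i _ => ?_) (MvPolynomial.le_totalDegree hm)
  refine (MvPolynomial.totalDegree_pow _ _).trans ?_
  calc m i * _ ≤ m i * 1 := Nat.mul_le_mul_left _ (hlin i)
    _ = m i := mul_one _

end deg

variable {ι : Type} {r : ℕ}

/-- the matrix of the linear map `X ↦ P X Q` on tuples of matrices -/
noncomputable def cm [DecidableEq ι] (P Q : Matrix (Fin r) (Fin r) ℂ) :
    (ι × Fin r × Fin r) → (ι × Fin r × Fin r) → ℂ :=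
  fun a b => if a.1 = b.1 then P a.2.1 b.2.1 * Q b.2.2 a.2.2 else 0

/-- the tuple of matrices with given coordinates -/
def mats {A : Type*} (x : ι × Fin r × Fin r → A) (p : ι) : Matrix (Fin r) (Fin r) A :=
  fun i j => x (p, i, j)

theorem mul_mul_apply' {A : Type*} [CommRing A] (P M Q : Matrix (Fin r) (Fin r) A) (i j : Fin r) :
    (P * M * Q) i j = ∑ k, ∑ l, P i k * Q l j * M k l := by
  rw [Matrix.mul_apply, Finset.sum_comm]
  refine Finset.sum_congr rfl fun l _ => ?_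
  rw [Matrix.mul_apply, Finset.sum_mul]
  refine Finset.sum_congr rfl fun k _ => ?_
  ring

theorem eval_cm [Fintype ι] [DecidableEq ι] (P Q : Matrix (Fin r) (Fin r) ℂ)
    (f : MvPolynomial (ι × Fin r × Fin r) ℂ) (x : ι × Fin r × Fin r → ℂ) :
    MvPolynomial.eval x (sub (cm P Q) f) =
      MvPolynomial.eval (fun a => (P * mats x a.1 * Q) a.2.1 a.2.2) f := by
  rw [eval_sub]
  have h : (fun i => ∑ j, cm P Q i j * x j) =
      fun a : ι × Fin r × Fin r => (P * mats x a.1 * Q) a.2.1 a.2.2 := by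
    funext a
    obtain ⟨p, i, j⟩ := a
    rw [Fintype.sum_prod_type, Finset.sum_eq_single p]
    · rw [Fintype.sum_prod_type, mul_mul_apply']
      refine Finset.sum_congr rfl fun k _ => Finset.sum_congr rfl fun l _ => ?_
      rw [cm, if_pos rfl]
      rfl
    · intro q _ hq
      refine Finset.sum_eq_zero fun k _ => ?_
      rw [cm, if_neg (Ne.symm hq), zero_mul]
    · intro h
      exact absurd (Finset.mem_univ p) h
  rw [h]

/-- the conjugate transpose of a matrix of determinant 1 -/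
def star' (P : SpecialLinearGroup (Fin r) ℂ) : SpecialLinearGroup (Fin r) ℂ :=
  ⟨P.1ᴴ, by rw [Matrix.det_conjTranspose, P.2, star_one]⟩

theorem star'_inv (P : SpecialLinearGroup (Fin r) ℂ) : ((star' P)⁻¹).1 = ((P⁻¹).1)ᴴ := by
  have h : ∀ A : SpecialLinearGroup (Fin r) ℂ, (A⁻¹).1 = A.1.adjugate := fun A =>
    Matrix.SpecialLinearGroup.coe_inv A
  rw [h, h, Matrix.adjugate_conjTranspose]
  rfl

/-- **An invariant polynomial.** -/
theorem reynolds [Fintype ι] [DecidableEq ι] (J J₀ : Ideal (MvPolynomial (ι × Fin r × Fin r) ℂ))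
    (hJ : ∀ P : SpecialLinearGroup (Fin r) ℂ, ∀ f ∈ J, sub (cm P.1 (P⁻¹).1) f ∈ J)
    (hJ₀ : ∀ P : SpecialLinearGroup (Fin r) ℂ, ∀ f ∈ J₀, sub (cm P.1 (P⁻¹).1) f ∈ J₀)
    (f₁ : MvPolynomial (ι × Fin r × Fin r) ℂ) (h1 : f₁ ∈ J) (h2 : f₁ - 1 ∈ J₀) :
    ∃ f ∈ J, f - 1 ∈ J₀ ∧ ∀ P : SpecialLinearGroup (Fin r) ℂ, sub (cm P.1 (P⁻¹).1) f = f := by
  obtain ⟨M, hM⟩ : ∃ M : Submodule ℂ (MvPolynomial (ι × Fin r × Fin r) ℂ), ∀ f, f ∈ M ↔
      f ∈ MvPolynomial.restrictTotalDegree (ι × Fin r × Fin r) ℂ f₁.totalDegree ∧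
        f ∈ J ∧ f ∈ J₀ :=
    ⟨MvPolynomial.restrictTotalDegree (ι × Fin r × Fin r) ℂ f₁.totalDegree ⊓
      (J.restrictScalars ℂ ⊓ J₀.restrictScalars ℂ), fun f => Iff.rfl⟩
  have hle : M ≤ MvPolynomial.restrictTotalDegree (ι × Fin r × Fin r) ℂ f₁.totalDegree :=
    fun f hf => ((hM f).1 hf).1
  have hfd : FiniteDimensional ℂ M := Submodule.finiteDimensional_of_le hle
  have hstab : ∀ P : SpecialLinearGroup (Fin r) ℂ, ∀ f ∈ M, sub (cm P.1 (P⁻¹).1) f ∈ M := by
    intro P f hf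
    obtain ⟨h3, h4, h5⟩ := (hM f).1 hf
    refine (hM _).2 ⟨?_, hJ P f h4, hJ₀ P f h5⟩
    rw [MvPolynomial.mem_restrictTotalDegree] at h3 ⊢
    exact (totalDegree_sub_le _ _).trans h3
  obtain ⟨m, hm, horth⟩ := exists_proj M f₁
  obtain ⟨hm1, hm2, hm3⟩ := (hM m).1 hm
  have hf1 : f₁ - m - 1 ∈ J₀ := by
    have h3 : f₁ - m - 1 = (f₁ - 1) - m := by ring
    rw [h3]
    exact J₀.sub_mem h2 hm3
  refine ⟨f₁ - m, J.sub_mem h1 hm2, hf1, fun P => ?_⟩
  obtain ⟨A, hA⟩ : ∃ A, A = cm (ι := ι) P.1 (P⁻¹).1 := ⟨_, rfl⟩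
  -- the difference is in `M`
  have h3 : sub A (f₁ - m) - (f₁ - m) ∈ M := by
    refine (hM _).2 ⟨?_, ?_, ?_⟩
    · have h4 : f₁ - m ∈ MvPolynomial.restrictTotalDegree (ι × Fin r × Fin r) ℂ
          f₁.totalDegree := by
        refine Submodule.sub_mem _ ?_ hm1
        rw [MvPolynomial.mem_restrictTotalDegree]
      refine Submodule.sub_mem _ ?_ h4
      rw [MvPolynomial.mem_restrictTotalDegree] at h4 ⊢
      exact (totalDegree_sub_le _ _).trans h4
    · refine J.sub_mem ?_ (J.sub_mem h1 hm2)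
      rw [hA]
      exact hJ P _ (J.sub_mem h1 hm2)
    · have h5 : sub A (f₁ - m) - (f₁ - m) = sub A (f₁ - m - 1) - (f₁ - m - 1) := by
        rw [map_sub (sub A) (f₁ - m) 1, map_one]
        ring
      rw [h5]
      refine J₀.sub_mem ?_ hf1
      rw [hA]
      exact hJ₀ P _ hf1
  -- and orthogonal to `M`
  have h4 : ∀ g ∈ M, B (sub A (f₁ - m) - (f₁ - m)) (cj g) = 0 := by
    intro g hg
    rw [map_sub, LinearMap.sub_apply, horth g hg, sub_zero, B_sub]
    have h5 : sub (fun i j => A j i) (cj g) =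
        cj (sub (cm (star' P).1 ((star' P)⁻¹).1) g) := by
      rw [cj_sub]
      have h6 : (fun i j => A j i) = fun i j : ι × Fin r × Fin r =>
          starRingEnd ℂ (cm (star' P).1 ((star' P)⁻¹).1 i j) := by
        funext a b
        rw [hA, cm, cm, star'_inv]
        by_cases hab : b.1 = a.1
        · rw [if_pos hab, if_pos hab.symm, map_mul]
          change _ = starRingEnd ℂ (star (P.1 b.2.1 a.2.1)) *
            starRingEnd ℂ (star ((P⁻¹).1 a.2.2 b.2.2))
          rw [starRingEnd_apply, starRingEnd_apply, star_star, star_star]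
        · rw [if_neg hab, if_neg (Ne.symm hab), map_zero]
      rw [h6]
    rw [h5]
    exact horth _ (hstab (star' P) g hg)
  have h5 := B_cj_ne _ (h4 _ h3)
  rw [hA] at h5
  exact sub_eq_zero.1 h5

end Vale.Agent.P002.H2N
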