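import Vale.Agent.P002.H2N.Inv
import Vale.Agent.P002.H85.Constr
import Vale.Agent.P002.H85.DefsU
import Vale.Agent.P002.H377.Conj

/-!
# Invariants separate a semisimple representation from a closed invariant set
-/

namespace Vale.Agent.P002.H2N

open Matrix Vale.Agent.P002R.Orb Vale.Agent.P002.H252 Vale.Agent.P002.H85

variable {ι : Type} {r : ℕ}

theorem lift_conj (X₀ : ι → SpecialLinearGroup (Fin r) ℂ) (P : SpecialLinearGroup (Fin r) ℂ)
    (w : FreeGroup ι) :
    FreeGroup.lift (fun p => P * X₀ p * P⁻¹) w = P * FreeGroup.lift X₀ w * P⁻¹ := by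
  have h : FreeGroup.lift (fun p => P * X₀ p * P⁻¹) =
      (MulAut.conj P).toMonoidHom.comp (FreeGroup.lift X₀) := by
    apply FreeGroup.ext_hom
    intro p
    rw [FreeGroup.lift_apply_of, MonoidHom.comp_apply, FreeGroup.lift_apply_of]
    rfl
  rw [h]
  rfl

theorem trace_conj (P M : SpecialLinearGroup (Fin r) ℂ) : (P * M * P⁻¹).1.trace = M.1.trace := by
  have h : (P * M * P⁻¹).1 = P.1 * (M * P⁻¹).1 := by
    rw [mul_assoc]
    rfl
  rw [h, Matrix.trace_mul_comm]
  have h2 : (M * P⁻¹).1 * P.1 = (M * P⁻¹ * P).1 := rfl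
  rw [h2, inv_mul_cancel_right]

/-- the coordinates as values of a tuple of matrices -/
theorem coords_eq (X : ι → SpecialLinearGroup (Fin r) ℂ) :
    coords X = fun a => (X a.1).1 a.2.1 a.2.2 := rfl

/-- **The orbit of a semisimple representation is closed.** -/
theorem orbit_closed (X₀ : ι → SpecialLinearGroup (Fin r) ℂ)
    (hss : ∀ W, IsInv X₀ W → ∃ W', IsInv X₀ W' ∧ IsCompl W W')
    (x : ι × Fin r × Fin r → ℂ)
    (hx : ∀ f : MvPolynomial (ι × Fin r × Fin r) ℂ,
      (∀ P : SpecialLinearGroup (Fin r) ℂ, value f (fun p => P * X₀ p * P⁻¹) = 0) →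
        MvPolynomial.eval x f = 0) :
    ∃ P : SpecialLinearGroup (Fin r) ℂ, x = coords fun p => P * X₀ p * P⁻¹ := by
  -- the point is a tuple of matrices of determinant `1`
  have hdet : ∀ p, (mats x p).det = 1 := by
    intro p
    have h1 := hx ((Matrix.of fun i j : Fin r => (MvPolynomial.X (p, i, j) :
      MvPolynomial (ι × Fin r × Fin r) ℂ)).det - 1) (by
        intro P
        rw [value_eq, map_sub, map_one, RingHom.map_det, sub_eq_zero]
        have h2 : (MvPolynomial.eval (coords fun p => P * X₀ p * P⁻¹)).mapMatrix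
            (Matrix.of fun i j : Fin r => (MvPolynomial.X (p, i, j) :
              MvPolynomial (ι × Fin r × Fin r) ℂ)) = (P * X₀ p * P⁻¹).1 := by
          ext i j
          rw [RingHom.mapMatrix_apply, Matrix.map_apply, Matrix.of_apply, MvPolynomial.eval_X]
          rfl
        rw [h2]
        exact (P * X₀ p * P⁻¹).2)
    rw [map_sub, map_one, RingHom.map_det, sub_eq_zero] at h1
    rw [← h1]
    congr 1
    ext i j
    rw [RingHom.mapMatrix_apply, Matrix.map_apply, Matrix.of_apply, MvPolynomial.eval_X]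
    rfl
  obtain ⟨X, hX⟩ : ∃ X : ι → SpecialLinearGroup (Fin r) ℂ, coords X = x :=
    ⟨fun p => ⟨mats x p, hdet p⟩, rfl⟩
  have hX0 : ∀ f : (ι → SpecialLinearGroup (Fin r) ℂ) → ℂ, PFn f →
      (∀ P : SpecialLinearGroup (Fin r) ℂ, f (fun p => P * X₀ p * P⁻¹) = 0) → f X = 0 := by
    rintro f ⟨F, hF⟩ h
    rw [hF, value_eq, hX]
    exact hx F fun P => by rw [← hF]; exact h P
  -- the traces agree
  have htr : ∀ w, (FreeGroup.lift X w).1.trace = (FreeGroup.lift X₀ w).1.trace := by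
    intro w
    have h1 := hX0 (fun X => (FreeGroup.lift X w).1.trace - (FreeGroup.lift X₀ w).1.trace)
      ((PFn.trace w).sub (PFn.const _)) (by
        intro P
        rw [lift_conj, trace_conj, sub_self])
    exact sub_eq_zero.1 h1
  -- the criterion for semisimplicity
  obtain ⟨d, hd, hE, u, hu⟩ := (crit (matHom X₀)).1 ((ss_iff X₀).1 hss)
  have hssX : ∀ W, IsInv X W → ∃ W', IsInv X W' ∧ IsCompl W W' := by
    rw [ss_iff, crit]
    refine ⟨d, hd, fun v hv => ?_, u, ?_⟩
    · rw [indep_iff_minor'] at hv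
      obtain ⟨c, hc⟩ := hv
      apply hc
      refine hX0 (fun X => (Matrix.of fun a b => (FreeGroup.lift X (v a)).1
            (c b).1 (c b).2).det) (PFn.det fun a b => PFn.word _ _ _) fun P => ?_
      by_contra hne
      have h1 : LinearIndependent ℂ fun a => (FreeGroup.lift (fun p => P * X₀ p * P⁻¹) (v a)).1 := by
        rw [indep_iff_minor']
        exact ⟨c, hne⟩
      apply hE v
      rw [Fintype.linearIndependent_iff] at h1 ⊢
      intro g hg
      apply h1
      have h2 : ∀ a, (FreeGroup.lift (fun p => P * X₀ p * P⁻¹) (v a)).1 =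
          P.1 * (matHom X₀ (v a)) * (P⁻¹).1 := by
        intro a
        rw [lift_conj]
        rfl
      have h3 : ∑ a, g a • (P.1 * (matHom X₀ (v a)) * (P⁻¹).1) =
          P.1 * (∑ a, g a • matHom X₀ (v a)) * (P⁻¹).1 := by
        rw [Finset.mul_sum, Finset.sum_mul]
        refine Finset.sum_congr rfl fun a _ => ?_
        rw [mul_smul_comm, smul_mul_assoc]
      simp_rw [h2]
      rw [h3, hg, mul_zero, zero_mul]
    · have h1 : gramW (matHom X) u = gramW (matHom X₀) u := by
        ext i j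
        exact htr (u i * u j)
      rw [h1]
      exact hu
  -- conjugacy
  have hconv : ∀ X : ι → SpecialLinearGroup (Fin r) ℂ,
      (∀ W, IsInv X W → ∃ W', IsInv X W' ∧ IsCompl W W') →
      ∀ W : Submodule ℂ (Fin r → ℂ),
        (∀ z ∈ (⊤ : Subgroup (FreeGroup ι)), ∀ v ∈ W, (FreeGroup.lift X z).1.mulVec v ∈ W) →
      ∃ W' : Submodule ℂ (Fin r → ℂ), (∀ z ∈ (⊤ : Subgroup (FreeGroup ι)), ∀ v ∈ W',
        (FreeGroup.lift X z).1.mulVec v ∈ W') ∧ IsCompl W W' := by
    intro X hX W hW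
    obtain ⟨W', h1, h2⟩ := hX W ((isInv_iff X W).2 fun w v hv => by
      rw [Matrix.toLin'_apply]
      exact hW w trivial v hv)
    refine ⟨W', fun z _ v hv => ?_, h2⟩
    have h3 := (isInv_iff X W').1 h1 z v hv
    rw [Matrix.toLin'_apply] at h3
    exact h3
  obtain ⟨g, hg⟩ := Vale.Agent.P002.H377.conj_of_trace (⊤ : Subgroup (FreeGroup ι))
    (FreeGroup.lift X₀) (FreeGroup.lift X) (hconv X₀ hss) (hconv X hssX)
    fun z _ => (htr z).symm
  refine ⟨g, ?_⟩
  rw [← hX]
  congr 1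
  funext p
  have h1 := hg (FreeGroup.of p) trivial
  rw [FreeGroup.lift_apply_of, FreeGroup.lift_apply_of] at h1
  exact h1

theorem value_sub [Fintype ι] [DecidableEq ι] (P : SpecialLinearGroup (Fin r) ℂ)
    (f : MvPolynomial (ι × Fin r × Fin r) ℂ) (X : ι → SpecialLinearGroup (Fin r) ℂ) :
    value (sub (cm P.1 (P⁻¹).1) f) X = value f (fun p => P * X p * P⁻¹) := by
  rw [value_eq, eval_cm, value_eq]
  rfl

/-- **Separation.** A closed set of representations which is invariant under conjugation and a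
semisimple representation which is not in it are separated by an invariant. -/
theorem sep [Finite ι] (R : Set (FreeGroup ι))
    (I : Ideal (MvPolynomial (ι × Fin r × Fin r) ℂ))
    (hI : ∀ X, IsZero I X → ∀ P : SpecialLinearGroup (Fin r) ℂ,
      IsZero I (fun p => P * X p * P⁻¹))
    (X₀ : ι → SpecialLinearGroup (Fin r) ℂ) (hX₀ : X₀ ∈ YNone R r) (h : ¬ IsZero I X₀) :
    ∃ F : MvPolynomial (ι × Fin r × Fin r) ℂ, IsInvariant R F ∧
      (∀ X, IsZero I X → value F X = 0) ∧ value F X₀ ≠ 0 := by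
  classical
  have := Fintype.ofFinite ι
  obtain ⟨J, hJ⟩ : ∃ J : Ideal (MvPolynomial (ι × Fin r × Fin r) ℂ),
      ∀ f, f ∈ J ↔ ∀ X, IsZero I X → value f X = 0 := ⟨vanIdeal {X | IsZero I X}, fun f => Iff.rfl⟩
  obtain ⟨J₀, hJ₀⟩ : ∃ J₀ : Ideal (MvPolynomial (ι × Fin r × Fin r) ℂ),
      ∀ f, f ∈ J₀ ↔ ∀ P : SpecialLinearGroup (Fin r) ℂ, value f (fun p => P * X₀ p * P⁻¹) = 0 :=
    ⟨vanIdeal (Set.range fun P : SpecialLinearGroup (Fin r) ℂ => fun p => P * X₀ p * P⁻¹),
      fun f => ⟨fun hf P => hf _ ⟨P, rfl⟩, by rintro hf _ ⟨P, rfl⟩; exact hf P⟩⟩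
  -- the two closed sets are disjoint
  have htop : J ⊔ J₀ = ⊤ := by
    by_contra hne
    obtain ⟨m, hm, hle⟩ := Ideal.exists_le_maximal _ hne
    obtain ⟨x, hx⟩ := MvPolynomial.isMaximal_iff_eq_vanishingIdeal_singleton.1 hm
    have hmem : ∀ f, f ∈ m → MvPolynomial.eval x f = 0 := by
      intro f hf
      rw [hx, MvPolynomial.mem_vanishingIdeal_singleton_iff] at hf
      rw [← MvPolynomial.coe_aeval_eq_eval]
      exact hf
    obtain ⟨P, hP⟩ := orbit_closed X₀ hX₀.2 x fun f hf =>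
      hmem f (hle (Ideal.mem_sup_right ((hJ₀ f).2 hf)))
    have h1 : IsZero I (fun p => P * X₀ p * P⁻¹) := by
      intro F hF
      rw [value_eq, ← hP]
      exact hmem F (hle (Ideal.mem_sup_left ((hJ F).2 fun X hX => hX F hF)))
    apply h
    have h2 := hI _ h1 P⁻¹
    have h3 : (fun p => P⁻¹ * (P * X₀ p * P⁻¹) * P⁻¹⁻¹) = X₀ := by
      funext p
      group
    rw [h3] at h2
    exact h2
  obtain ⟨f₁, h1, f₀, h0, hsum⟩ := Submodule.mem_sup.1 ((Ideal.eq_top_iff_one _).1 htop)
  obtain ⟨f, hf, hf0, hinv⟩ := reynolds J J₀ (by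
      intro P f hf
      rw [hJ] at hf ⊢
      intro X hX
      rw [value_sub]
      exact hf _ (hI X hX P)) (by
      intro P f hf
      rw [hJ₀] at hf ⊢
      intro Q
      rw [value_sub]
      have h2 := hf (P * Q)
      have h3 : (fun p => P * Q * X₀ p * (P * Q)⁻¹) = fun p => P * (Q * X₀ p * Q⁻¹) * P⁻¹ := by
        funext p
        group
      rw [h3] at h2
      exact h2) f₁ h1 (by
      have h2 : f₁ - 1 = -f₀ := by rw [← hsum]; ring
      rw [h2]
      exact J₀.neg_mem h0)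
  refine ⟨f, isInvariant_of R f hinv, (hJ f).1 hf, fun hz => ?_⟩
  have h2 := (hJ₀ _).1 hf0 1
  have h3 : (fun p => (1 : SpecialLinearGroup (Fin r) ℂ) * X₀ p * 1⁻¹) = X₀ := by
    funext p
    group
  rw [h3, value_eq, map_sub, map_one, ← value_eq, hz, zero_sub] at h2
  exact one_ne_zero (neg_eq_zero.1 h2)

end Vale.Agent.P002.H2N
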